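import Vale.Agent.P181.TRT.Defs

/-!
# P181, TR8: `gt` is at most the product over the rows (helper398)
-/

namespace Vale.Agent.P181.TRT.H398

open Vale.Agent.P181.H463

theorem hockey (N n : ℕ) : ∑ v ∈ Finset.range (n + 1), (N + v).choose v = (N + 1 + n).choose n := by
  induction n with
  | zero => simp
  | succ n ih =>
    rw [Finset.sum_range_succ, ih]
    have e1 : N + (n + 1) = N + 1 + n := by ring
    have e2 : N + 1 + (n + 1) = (N + 1 + n) + 1 := by ring
    rw [e1, e2, Nat.choose_succ_succ]

/-- **(TR8)** -/
theorem gtRow : GtRow := by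
  intro m N
  induction N with
  | zero =>
    intro mu
    simp only [gt, zero_add, Nat.choose_self, Finset.prod_const_one]
    split_ifs <;> simp
  | succ N ih =>
    intro mu
    calc gt m (N + 1) mu = ∑ nu ∈ strips mu, gt m N nu := rfl
      _ ≤ ∑ nu ∈ strips mu, ∏ i, (N + nu i).choose (nu i) :=
          Finset.sum_le_sum fun nu _ => ih nu
      _ ≤ ∑ nu ∈ Fintype.piFinset (fun i => Finset.range (mu i + 1)),
            ∏ i, (N + nu i).choose (nu i) := by
          refine Finset.sum_le_sum_of_subset ?_
          intro nu hnu
          rw [strips, Fintype.mem_piFinset] at hnu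
          rw [Fintype.mem_piFinset]
          intro i
          have := Finset.mem_Icc.mp (hnu i)
          exact Finset.mem_range.mpr (by omega)
      _ = ∏ i, ∑ v ∈ Finset.range (mu i + 1), (N + v).choose v := by
          rw [Finset.prod_univ_sum]
      _ = ∏ i, (N + 1 + mu i).choose (mu i) :=
          Finset.prod_congr rfl fun i _ => hockey N (mu i)

end Vale.Agent.P181.TRT.H398
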