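import Vale.Agent.P181.TRT.Defs

/-!
# P181, TR5: long columns (helper398)
-/

open MvPolynomial

namespace Vale.Agent.P181.TRT.H398

variable {m : ℕ} {σ : Type} [Fintype σ] {k : σ → ℕ} {dl : Fin m → ℕ} {c : σ → ℕ}

theorem sepMono {E E' : Set (Equiv.Perm σ)} (h : Sep m k dl c E)
    (hE : ∀ e : Equiv.Perm σ, (∀ j, k (e j) = k j) → e ∈ E' → e ∈ E) : Sep m k dl c E' := by
  obtain ⟨I, hI, u, v, h1, h2, h3⟩ := h
  exact ⟨I, hI, u, v, h1, fun e he hE' => h2 e he (hE e he hE'), h3⟩

/-- Full blocks from the superblocks `≠ al`, and references. -/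
theorem fill {κ y M : ℕ} {σ : Type} [DecidableEq σ] {k : σ → ℕ}
    {mn : Fin κ × Fin y × Fin M → σ} {ref : Fin (2 * y + M) → σ} (hM : 0 < M)
    (hmn : Function.Injective mn) (href : Function.Injective ref)
    (hd : ∀ x z, ref x ≠ mn z) (hrk : ∀ x j, k j = k (ref x) → j = ref x)
    (hmk : ∀ x j, k j = k (mn x) → ∃ p, j = mn (x.1, x.2.1, p)) (al : Fin κ) {N : ℕ}
    (hN : N ≤ (κ - 1) * (y * M)) :
    ∃ P : Finset σ, P.card = N ∧
      (∀ x ∈ P, (∃ z : Fin κ × Fin y × Fin M, z.1 ≠ al ∧ x = mn z) ∨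
        ∃ i : Fin (2 * y + M), 2 * y ≤ (i : ℕ) ∧ x = ref i) ∧
      ∀ q ∈ P, ∀ j, k j = k q → j ∈ P := by
  classical
  have hcard : Fintype.card ({a : Fin κ // a ≠ al} × Fin y) = (κ - 1) * y := by
    rw [Fintype.card_prod, Fintype.card_fin, Fintype.card_subtype_compl, Fintype.card_fin,
      Fintype.card_subtype_eq]
  have ht : N / M ≤ (Finset.univ : Finset ({a : Fin κ // a ≠ al} × Fin y)).card := by
    rw [Finset.card_univ, hcard]
    apply Nat.div_le_of_le_mul
    rw [mul_comm M]
    rwa [← mul_assoc] at hN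
  obtain ⟨T, -, hT⟩ := Finset.exists_subset_card_eq ht
  set g : ({a : Fin κ // a ≠ al} × Fin y) × Fin M → σ :=
    fun x => mn (x.1.1.1, x.1.2, x.2) with hg
  have hginj : Function.Injective g := by
    rintro ⟨⟨⟨a, ha⟩, b⟩, p⟩ ⟨⟨⟨a', ha'⟩, b'⟩, p'⟩ h
    have := hmn h
    simp only [Prod.mk.injEq] at this
    obtain ⟨rfl, rfl, rfl⟩ := this
    rfl
  set P1 : Finset σ := (T ×ˢ (Finset.univ : Finset (Fin M))).image g with hP1
  have hP1c : P1.card = N / M * M := by
    rw [hP1, Finset.card_image_of_injective _ hginj, Finset.card_product, hT, Finset.card_univ,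
      Fintype.card_fin]
  have hr : N % M < M := Nat.mod_lt _ hM
  set f : Fin (N % M) → σ := fun i => ref ⟨2 * y + i, by omega⟩ with hf
  have hfinj : Function.Injective f := by
    intro i j h
    have := href h
    simp only [Fin.mk.injEq] at this
    exact Fin.ext (by omega)
  set P2 : Finset σ := Finset.univ.image f with hP2
  have hP2c : P2.card = N % M := by
    rw [hP2, Finset.card_image_of_injective _ hfinj, Finset.card_univ, Fintype.card_fin]
  have hdis : Disjoint P1 P2 := by
    rw [Finset.disjoint_left]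
    intro x h1 h2
    obtain ⟨z, -, rfl⟩ := Finset.mem_image.mp h1
    obtain ⟨i, -, h3⟩ := Finset.mem_image.mp h2
    exact hd _ _ h3
  refine ⟨P1 ∪ P2, ?_, ?_, ?_⟩
  · rw [Finset.card_union_of_disjoint hdis, hP1c, hP2c]
    exact Nat.div_add_mod' N M
  · intro x hx
    rcases Finset.mem_union.mp hx with h | h
    · obtain ⟨z, -, rfl⟩ := Finset.mem_image.mp h
      exact Or.inl ⟨_, z.1.1.2, rfl⟩
    · obtain ⟨i, -, rfl⟩ := Finset.mem_image.mp h
      exact Or.inr ⟨_, by simp, rfl⟩
  · intro q hq j hj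
    rcases Finset.mem_union.mp hq with h | h
    · obtain ⟨z, hz, rfl⟩ := Finset.mem_image.mp h
      obtain ⟨p, rfl⟩ := hmk _ _ hj
      refine Finset.mem_union_left _ (Finset.mem_image.mpr ⟨(z.1, p), ?_, rfl⟩)
      rw [Finset.mem_product] at hz ⊢
      exact ⟨hz.1, Finset.mem_univ _⟩
    · obtain ⟨i, -, rfl⟩ := Finset.mem_image.mp h
      rw [hrk _ _ hj]
      exact hq

/-- **(TR5)** from (TR2), (TR3). -/
theorem longT (hS : SepProd) (hB : BlockT) : LongT := by
  classical
  intro m κ y M σ _ k mn ref len len' hM hmn href hd hrk hmk hpair hlen hlen' hm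
  have hone : ∀ f : Fin κ × Fin M × Fin M, ∃ c : σ → ℕ, (∀ j, c j ≤ 4) ∧
      Sep m k (col m (len f) + col m (len' f)) c
        {e | f.2.1 ≠ f.2.2 ∧ ∃ b b', e (mn (f.1, b, f.2.1)) = mn (f.1, b', f.2.2)} := by
    rintro ⟨al, p, p'⟩
    obtain ⟨hl1, hl2⟩ := hlen (al, p, p')
    obtain ⟨hl1', hl2'⟩ := hlen' (al, p, p')
    by_cases hpp : p = p'
    · -- no exchange
      obtain ⟨P, hP1, hP2, hP3⟩ := fill hM hmn href hd hrk hmk al (hl2.trans hm)
      obtain ⟨P', hP1', hP2', hP3'⟩ := fill hM hmn href hd hrk hmk al (hl2'.trans hm)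
      have h := hB m 0 (len (al, p, p')) (len' (al, p, p')) σ k ∅ ∅ ∅ P P' (by simp) (by simp)
        (by simp) (by simpa using hP1) (by simpa using hP1') hl2 hl2' (by simp) (by simp)
        (by simp) (by simp) (by simp) (by simp) hP3 hP3'
      refine ⟨_, ?_, sepMono h ?_⟩
      · intro j
        split_ifs <;> omega
      · intro e he hE
        exact absurd hpp hE.1
    · obtain ⟨P, hP1, hP2, hP3⟩ := fill hM hmn href hd hrk hmk al
        (N := len (al, p, p') - 2 * y) ((Nat.sub_le _ _).trans (hl2.trans hm))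
      obtain ⟨P', hP1', hP2', hP3'⟩ := fill hM hmn href hd hrk hmk al
        (N := len' (al, p, p') - y) ((Nat.sub_le _ _).trans (hl2'.trans hm))
      set J : Finset σ := Finset.univ.image fun b : Fin y => mn (al, b, p) with hJ
      set I : Finset σ := Finset.univ.image fun b : Fin y => mn (al, b, p') with hI
      set B : Finset σ := Finset.univ.image fun b : Fin (2 * y) =>
        ref ⟨b, by omega⟩ with hBd
      have hJc : J.card = y := by
        rw [hJ, Finset.card_image_of_injective, Finset.card_univ, Fintype.card_fin]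
        intro b b' h
        have := hmn h
        simpa using this
      have hIc : I.card = y := by
        rw [hI, Finset.card_image_of_injective, Finset.card_univ, Fintype.card_fin]
        intro b b' h
        have := hmn h
        simpa using this
      have hBc : B.card = 2 * y := by
        rw [hBd, Finset.card_image_of_injective, Finset.card_univ, Fintype.card_fin]
        intro b b' h
        have := href h
        simp only [Fin.mk.injEq] at this
        exact Fin.ext this
      have hmnP : ∀ {Q : Finset σ}, (∀ x ∈ Q, (∃ z : Fin κ × Fin y × Fin M, z.1 ≠ al ∧ x = mn z) ∨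
          ∃ i : Fin (2 * y + M), 2 * y ≤ (i : ℕ) ∧ x = ref i) →
          ∀ (b : Fin y) (q : Fin M), mn (al, b, q) ∉ Q := by
        intro Q hQ b q hx
        rcases hQ _ hx with ⟨z, hz, e⟩ | ⟨i, -, e⟩
        · have := hmn e
          rw [← this] at hz
          exact hz rfl
        · exact hd _ _ e.symm
      have hrefP : ∀ {Q : Finset σ}, (∀ x ∈ Q, (∃ z : Fin κ × Fin y × Fin M, z.1 ≠ al ∧ x = mn z) ∨
          ∃ i : Fin (2 * y + M), 2 * y ≤ (i : ℕ) ∧ x = ref i) → Disjoint B Q := by
        intro Q hQ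
        rw [Finset.disjoint_left]
        intro x hx hxQ
        obtain ⟨b, -, rfl⟩ := Finset.mem_image.mp hx
        rcases hQ _ hxQ with ⟨z, hz, e⟩ | ⟨i, hi, e⟩
        · exact hd _ _ e
        · have := href e
          have h2 : (b : ℕ) = i := congrArg Fin.val this
          have := b.2
          omega
      have h := hB m y (len (al, p, p')) (len' (al, p, p')) σ k J I B P P' hJc hIc hBc
        (by rw [hP1]; omega) (by rw [hP1']; omega) hl2 hl2' (by
          rw [Finset.disjoint_left]
          intro x h1 h2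
          obtain ⟨b, -, rfl⟩ := Finset.mem_image.mp h1
          obtain ⟨b', -, h3⟩ := Finset.mem_image.mp h2
          have := hmn h3
          simp only [Prod.mk.injEq] at this
          exact hpp this.2.2.symm) (by
          rw [Finset.disjoint_left]
          intro x h1 h2
          obtain ⟨b, -, rfl⟩ := Finset.mem_image.mp h1
          exact hmnP hP2 _ _ h2) (by
          rw [Finset.disjoint_left]
          intro x h1 h2
          obtain ⟨b, -, rfl⟩ := Finset.mem_image.mp h1
          exact hmnP hP2 _ _ h2) (hrefP hP2) (hrefP hP2') (by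
          intro x hx j hj
          obtain ⟨b, -, rfl⟩ := Finset.mem_image.mp hx
          exact hrk _ _ hj) hP3 hP3'
      refine ⟨_, ?_, sepMono h ?_⟩
      · intro j
        split_ifs <;> omega
      · rintro e he ⟨-, b, b', hbb⟩
        refine ⟨mn (al, b, p), Finset.mem_image.mpr ⟨b, Finset.mem_univ _, rfl⟩, ?_⟩
        rw [hbb]
        exact Finset.mem_image.mpr ⟨b', Finset.mem_univ _, rfl⟩
  choose c hc4 hcS using hone
  refine ⟨∑ f, c f, ?_, sepMono (hS m σ k _ _ c _ hcS) ?_⟩
  · intro j
    rw [Finset.sum_apply]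
    calc ∑ f, c f j ≤ ∑ _f : Fin κ × Fin M × Fin M, 4 := Finset.sum_le_sum fun f _ => hc4 f j
      _ = 4 * (κ * (M * M)) := by
        simp [Finset.card_univ, Fintype.card_prod]
        ring
  · intro e he hne
    have hne' : ∃ i, e i ≠ i := by
      by_contra hno
      push Not at hno
      exact hne (Equiv.ext hno)
    obtain ⟨i, hi⟩ := hne'
    obtain ⟨z, rfl⟩ := hpair i (e i) (Ne.symm hi) (he i).symm
    obtain ⟨p', hp'⟩ := hmk z (e (mn z)) (he _)
    refine Set.mem_iUnion.mpr ⟨(z.1, z.2.2, p'), ?_, z.2.1, z.2.1, hp'⟩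
    intro h
    apply hi
    rw [hp']
    simp only at h
    rw [← h]

end Vale.Agent.P181.TRT.H398
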